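import Vale.Agent.P079.H880.Families

set_option linter.all false

open Filter Topology Set

namespace Vale.Agent.P079.H880

variable {X : Type*} [NormedAddCommGroup X] [NormedSpace ℝ X]

/-- Retractions onto common fixed point sets of countable commuting families. -/
theorem exists_retr_countable [CompleteSpace X] {ι : Type*}
    (hX : Function.Surjective (NormedSpace.inclusionInDoubleDual ℝ X))
    {C : Set X} (hcl : IsClosed C) (hb : Bornology.IsBounded C) (hco : Convex ℝ C)
    {T : ι → X → X} (hT : ∀ i, NE C (T i))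
    (hcomm : ∀ i j, ∀ x ∈ C, T i (T j x) = T j (T i x)) {A : Set ι} (hA : A.Countable) :
    ∃ r, Retr C (Fx C T A) r := by
  classical
  rcases A.eq_empty_or_nonempty with h0 | hAne
  · refine ⟨fun x => x, NE.id C, fun x hx => ⟨hx, ?_⟩, fun x _ => rfl⟩
    intro i hi
    simp [h0] at hi
  obtain ⟨e, rfl⟩ := hA.exists_eq_range hAne
  -- finite stages
  let B : ℕ → Finset ι := fun n => (Finset.range (n + 1)).image e
  have hBmono : ∀ m n, m ≤ n → (B m : Set ι) ⊆ B n := by
    intro m n hmn i hi
    simp only [B, Finset.coe_image, Finset.coe_range, mem_image, mem_Iio] at hi ⊢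
    obtain ⟨k, hk, rfl⟩ := hi
    exact ⟨k, by omega, rfl⟩
  choose r hr using fun n => exists_retr_finset hX hcl hb hco hT hcomm (B n)
  have hFx : Fx C T (range e) = {x | x ∈ C ∧ ∀ n, r n x = x} := by
    ext x
    constructor
    · rintro ⟨hxC, hx⟩
      refine ⟨hxC, fun n => (hr n).2.2 x ⟨hxC, fun i hi => ?_⟩⟩
      simp only [B, Finset.coe_image, mem_image] at hi
      obtain ⟨k, _, rfl⟩ := hi
      exact hx _ (mem_range_self k)
    · rintro ⟨hxC, hx⟩
      refine ⟨hxC, ?_⟩
      rintro i ⟨k, rfl⟩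
      have h1 := (hr k).2.1 x hxC
      rw [hx k] at h1
      refine h1.2 _ ?_
      simp only [B, Finset.coe_image, Finset.coe_range, mem_image, mem_Iio]
      exact ⟨k, by omega, rfl⟩
  rw [hFx]
  refine exists_retraction hX hcl hb hco (fun x hx => hx.1) (range r) ?_ ?_ ?_
  · rintro S ⟨n, rfl⟩
    exact (hr n).1
  · rintro S ⟨n, rfl⟩ x hx
    exact hx.2 n
  · intro K hKC hKne hKcl hKco hK
    obtain ⟨x, hxK, hx⟩ := exists_common_seq hX hKne hKcl (hb.subset hKC) hKco
      (r := r) (fun n => (hr n).1.mono hKC (hK _ (mem_range_self n))) (by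
        intro m n hmn x hx
        have h1 := (hr n).2.1 x (hKC hx)
        exact (hr m).2.2 _ (Fx.anti C T (hBmono m n hmn) h1))
    exact ⟨x, hxK, hKC hxK, hx⟩

theorem isClosed_Fx {ι : Type*} {C : Set X} (hcl : IsClosed C) {T : ι → X → X}
    (hT : ∀ i, NE C (T i)) (A : Set ι) : IsClosed (Fx C T A) := by
  have e : Fx C T A = C ∩ ⋂ i ∈ A, {x | x ∈ C ∧ T i x - x = 0} := by
    ext x
    simp only [Fx, mem_setOf_eq, mem_inter_iff, mem_iInter]
    constructor
    · rintro ⟨h1, h2⟩
      exact ⟨h1, fun i hi => ⟨h1, by rw [h2 i hi, sub_self]⟩⟩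
    · rintro ⟨h1, h2⟩
      exact ⟨h1, fun i hi => sub_eq_zero.1 (h2 i hi).2⟩
  rw [e]
  refine hcl.inter (isClosed_biInter fun i _ => ?_)
  have h1 : ContinuousOn (fun x => T i x - x) C := (hT i).continuousOn.sub continuousOn_id
  have h2 := h1.preimage_isClosed_of_isClosed hcl (isClosed_singleton (x := (0 : X)))
  exact h2

/-- The common fixed point theorem for arbitrary commuting families. -/
theorem exists_common [CompleteSpace X] {ι : Type*}
    (hX : Function.Surjective (NormedSpace.inclusionInDoubleDual ℝ X))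
    {C : Set X} (hne : C.Nonempty) (hcl : IsClosed C) (hb : Bornology.IsBounded C)
    (hco : Convex ℝ C) {T : ι → X → X} (hT : ∀ i, NE C (T i))
    (hcomm : ∀ i j, ∀ x ∈ C, T i (T j x) = T j (T i x)) :
    ∃ x ∈ C, ∀ i, T i x = x := by
  classical
  -- a retraction for every set of indices (meaningful for countable sets)
  have hR : ∀ A : Set ι, ∃ r : X → X, A.Countable → Retr C (Fx C T A) r := by
    intro A
    by_cases hA : A.Countable
    · obtain ⟨r, hr⟩ := exists_retr_countable hX hcl hb hco hT hcomm hA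
      exact ⟨r, fun _ => hr⟩
    · exact ⟨fun x => x, fun h => absurd h hA⟩
  choose R hR using hR
  obtain ⟨c, hc⟩ := hne
  have hFne : ∀ A : Set ι, A.Countable → (Fx C T A).Nonempty :=
    fun A hA => ⟨_, (hR A hA).2.1 c hc⟩
  obtain ⟨M, hM⟩ := hb.exists_norm_le
  have hdiam : ∀ y ∈ C, ∀ z ∈ C, dist y z ≤ 2 * M := fun y hy z hz => by
    have h1 := norm_sub_le y z
    have h2 := hM y hy
    have h3 := hM z hz
    rw [dist_eq_norm]
    linarith
  -- the function phi
  let Φ : X → Set ℝ := fun y => {d | ∃ A : Set ι, A.Countable ∧ d = Metric.infDist y (Fx C T A)}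
  have hΦne : ∀ y, (Φ y).Nonempty := fun y => ⟨_, ∅, countable_empty, rfl⟩
  have hΦb : ∀ y ∈ C, BddAbove (Φ y) := by
    intro y hy
    refine ⟨2 * M, ?_⟩
    rintro d ⟨A, hA, rfl⟩
    obtain ⟨z, hz⟩ := hFne A hA
    exact (Metric.infDist_le_dist_of_mem hz).trans (hdiam y hy z hz.1)
  let φ : X → ℝ := fun y => sSup (Φ y)
  have hφle : ∀ y ∈ C, ∀ A : Set ι, A.Countable → Metric.infDist y (Fx C T A) ≤ φ y :=
    fun y hy A hA => le_csSup (hΦb y hy) ⟨A, hA, rfl⟩
  have hφlip : ∀ y ∈ C, ∀ z ∈ C, φ y ≤ φ z + dist y z := by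
    intro y hy z hz
    refine csSup_le (hΦne y) ?_
    rintro d ⟨A, hA, rfl⟩
    exact (Metric.infDist_le_infDist_add_dist).trans (add_le_add_left (hφle z hz A hA) _)
  -- phi is attained
  have hatt : ∀ y : X, ∃ A : Set ι, A.Countable ∧ (y ∈ C → ∀ B : Set ι, A ⊆ B → B.Countable →
      φ y ≤ Metric.infDist y (Fx C T B)) := by
    intro y
    by_cases hy : y ∈ C
    · have h1 : ∀ n : ℕ, ∃ A : Set ι, A.Countable ∧
          φ y - 1 / ((n : ℝ) + 1) < Metric.infDist y (Fx C T A) := by
        intro n
        have h2 : φ y - 1 / ((n : ℝ) + 1) < sSup (Φ y) := by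
          have : (0 : ℝ) < 1 / ((n : ℝ) + 1) := by positivity
          show φ y - 1 / ((n : ℝ) + 1) < φ y
          linarith
        obtain ⟨d, ⟨A, hA, rfl⟩, hd⟩ := exists_lt_of_lt_csSup (hΦne y) h2
        exact ⟨A, hA, hd⟩
      choose A hA hAd using h1
      refine ⟨⋃ n, A n, countable_iUnion hA, fun _ B hB hBc => ?_⟩
      have h3 : ∀ n : ℕ, φ y - 1 / ((n : ℝ) + 1) ≤ Metric.infDist y (Fx C T B) := by
        intro n
        refine (hAd n).le.trans (Metric.infDist_le_infDist_of_subset ?_ (hFne B hBc))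
        exact Fx.anti C T ((subset_iUnion A n).trans hB)
      have h4 : Tendsto (fun n : ℕ => φ y - 1 / ((n : ℝ) + 1)) atTop (𝓝 (φ y - 0)) :=
        tendsto_const_nhds.sub tendsto_one_div_add_atTop_nhds_zero_nat
      rw [sub_zero] at h4
      exact le_of_tendsto h4 (Eventually.of_forall h3)
    · exact ⟨∅, countable_empty, fun h => absurd h hy⟩
  choose Q hQc hQ using hatt
  -- dense sequences in separable sets
  have hdense : ∀ E : Set X, ∃ D : Set X, TopologicalSpace.IsSeparable E →
      D.Countable ∧ D ⊆ E ∧ E ⊆ closure D := by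
    intro E
    by_cases hE : TopologicalSpace.IsSeparable E
    · obtain ⟨D, hDE, hDc, hED⟩ := hE.exists_countable_dense_subset
      exact ⟨D, fun _ => ⟨hDc, hDE, hED⟩⟩
    · exact ⟨∅, fun h => absurd h hE⟩
  choose D hD using hdense
  -- the closing off recursion
  let step : Set ι × Set (X → X) × Set X → Set ι × Set (X → X) × Set X := fun s =>
    (s.1 ∪ ⋃ y ∈ D s.2.2, Q y,
      insert (R (s.1 ∪ ⋃ y ∈ D s.2.2, Q y)) s.2.1,
      closure (convexHull ℝ (s.2.2 ∪ ⋃ f ∈ s.2.1, f '' s.2.2)))
  let s0 : Set ι × Set (X → X) × Set X := (∅, {R ∅}, {c})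
  let s : ℕ → Set ι × Set (X → X) × Set X := fun n => step^[n] s0
  have hs_succ : ∀ n, s (n + 1) = step (s n) := fun n => by
    show step^[n + 1] s0 = step (step^[n] s0)
    rw [Function.iterate_succ_apply']
  let A : ℕ → Set ι := fun n => (s n).1
  let 𝓡 : ℕ → Set (X → X) := fun n => (s n).2.1
  let E : ℕ → Set X := fun n => (s n).2.2
  have hA_succ : ∀ n, A (n + 1) = A n ∪ ⋃ y ∈ D (E n), Q y := fun n => by
    show (s (n + 1)).1 = _
    rw [hs_succ]
  have h𝓡_succ : ∀ n, 𝓡 (n + 1) = insert (R (A (n + 1))) (𝓡 n) := fun n => by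
    show (s (n + 1)).2.1 = _
    rw [hA_succ, hs_succ]
  have hE_succ : ∀ n, E (n + 1) = closure (convexHull ℝ (E n ∪ ⋃ f ∈ 𝓡 n, f '' E n)) := fun n => by
    show (s (n + 1)).2.2 = _
    rw [hs_succ]
  have inv : ∀ n, (A n).Countable ∧ (𝓡 n).Countable ∧ (∀ f ∈ 𝓡 n, NE C f) ∧
      TopologicalSpace.IsSeparable (E n) ∧ E n ⊆ C ∧ R (A n) ∈ 𝓡 n := by
    intro n
    induction n with
    | zero =>
        refine ⟨countable_empty, countable_singleton _, ?_, ?_, ?_, ?_⟩
        · intro f hf
          have h1 : f = R ∅ := hf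
          rw [h1]
          exact (hR ∅ countable_empty).1
        · exact (countable_singleton c).isSeparable
        · intro x hx
          have h1 : x = c := hx
          rw [h1]
          exact hc
        · exact mem_singleton _
    | succ n ih =>
        obtain ⟨h1, h2, h3, h4, h5, h6⟩ := ih
        have hA1 : (A (n + 1)).Countable := by
          rw [hA_succ]
          exact h1.union ((hD _ h4).1.biUnion fun y _ => hQc y)
        refine ⟨hA1, ?_, ?_, ?_, ?_, ?_⟩
        · rw [h𝓡_succ]
          exact h2.insert _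
        · intro f hf
          rw [h𝓡_succ] at hf
          rcases mem_insert_iff.1 hf with rfl | hf
          · exact (hR _ hA1).1
          · exact h3 f hf
        · rw [hE_succ]
          have h7 : TopologicalSpace.IsSeparable (E n ∪ ⋃ f ∈ 𝓡 n, f '' E n) := by
            refine h4.union ?_
            haveI := h2.to_subtype
            rw [biUnion_eq_iUnion]
            refine TopologicalSpace.IsSeparable.iUnion fun f : 𝓡 n => ?_
            exact ((h3 f.1 f.2).continuousOn.mono h5).isSeparable_image h4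
          exact (h7.span.mono (convexHull_min Submodule.subset_span (Submodule.convex _))).closure
        · rw [hE_succ]
          refine closure_minimal (convexHull_min ?_ hco) hcl
          refine union_subset h5 (iUnion₂_subset fun f hf => ?_)
          rintro _ ⟨x, hx, rfl⟩
          exact (h3 f hf).1 (h5 hx)
        · rw [h𝓡_succ]
          exact mem_insert _ _
  have hAmono : Monotone A := monotone_nat_of_le_succ fun n => by
    rw [hA_succ]
    exact subset_union_left
  have h𝓡mono : Monotone 𝓡 := monotone_nat_of_le_succ fun n => by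
    rw [h𝓡_succ]
    exact subset_insert _ _
  have hEmono : Monotone E := monotone_nat_of_le_succ fun n => by
    rw [hE_succ]
    exact (subset_union_left.trans (subset_convexHull ℝ _)).trans subset_closure
  have hEconv : ∀ n, Convex ℝ (E n) := by
    intro n
    cases n with
    | zero => exact convex_singleton c
    | succ n =>
        rw [hE_succ]
        exact (convex_convexHull ℝ _).closure
  -- the limit set
  set K : Set X := closure (⋃ n, E n) with hK
  have hKC : K ⊆ C := closure_minimal (iUnion_subset fun n => (inv n).2.2.2.2.1) hcl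
  have hKco : Convex ℝ K := by
    refine Convex.closure ?_
    exact (directed_of_isDirected_le hEmono).convex_iUnion fun {n} => hEconv n
  have hKne : K.Nonempty := ⟨c, subset_closure (mem_iUnion.2 ⟨0, mem_singleton c⟩)⟩
  have hrK : ∀ n, MapsTo (R (A n)) K K := by
    intro n
    have h1 : MapsTo (R (A n)) (⋃ n, E n) (⋃ n, E n) := by
      intro x hx
      obtain ⟨m, hm⟩ := mem_iUnion.1 hx
      refine mem_iUnion.2 ⟨max n m + 1, ?_⟩
      rw [hE_succ]
      refine subset_closure (subset_convexHull ℝ _ (Or.inr ?_))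
      refine mem_iUnion₂.2 ⟨R (A n), h𝓡mono (le_max_left n m) (inv n).2.2.2.2.2, ?_⟩
      exact mem_image_of_mem _ (hEmono (le_max_right n m) hm)
    exact h1.closure_of_continuousOn (((hR _ (inv n).1).1.continuousOn).mono hKC)
  obtain ⟨x, hxK, hx⟩ := exists_common_seq hX hKne isClosed_closure (hb.subset hKC) hKco
    (r := fun n => R (A n)) (fun n => ((hR _ (inv n).1).1).mono hKC (hrK n)) (by
      intro m n hmn x hx
      have h1 := (hR _ (inv n).1).2.1 x (hKC hx)
      exact (hR _ (inv m).1).2.2 _ (Fx.anti C T (hAmono hmn) h1))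
  have hxC : x ∈ C := hKC hxK
  have hxA : ∀ n, x ∈ Fx C T (A n) := by
    intro n
    have h1 := (hR _ (inv n).1).2.1 x hxC
    rwa [hx n] at h1
  set Aω : Set ι := ⋃ n, A n with hAω
  have hAωc : Aω.Countable := countable_iUnion fun n => (inv n).1
  have hxω : x ∈ Fx C T Aω := ⟨hxC, fun i hi => by
    obtain ⟨n, hn⟩ := mem_iUnion.1 hi
    exact (hxA n).2 i hn⟩
  -- phi is small near x
  have hφx : φ x ≤ 0 := by
    refine le_of_forall_pos_le_add fun ε hε => ?_
    obtain ⟨y, hyE, hy⟩ := Metric.mem_closure_iff.1 hxK (ε / 4) (by linarith)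
    obtain ⟨n, hn⟩ := mem_iUnion.1 hyE
    have hyE' : y ∈ closure (D (E n)) := (hD _ (inv n).2.2.2.1).2.2 hn
    obtain ⟨z, hzD, hz⟩ := Metric.mem_closure_iff.1 hyE' (ε / 4) (by linarith)
    have hzC : z ∈ C := (inv n).2.2.2.2.1 ((hD _ (inv n).2.2.2.1).2.1 hzD)
    have hQz : Q z ⊆ Aω := by
      refine subset_trans ?_ (subset_iUnion A (n + 1))
      rw [hA_succ]
      exact (subset_biUnion_of_mem (u := fun y => Q y) hzD).trans subset_union_right
    have h1 := hQ z hzC Aω hQz hAωc
    have h2 : Metric.infDist z (Fx C T Aω) ≤ dist z x := Metric.infDist_le_dist_of_mem hxω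
    have h3 := hφlip x hxC z hzC
    have h4 : dist x z ≤ dist x y + dist y z := dist_triangle _ _ _
    have h5 : dist z x = dist x z := dist_comm _ _
    linarith
  refine ⟨x, hxC, fun i => ?_⟩
  have h1 : Metric.infDist x (Fx C T {i}) ≤ 0 :=
    (hφle x hxC {i} (countable_singleton i)).trans hφx
  have h2 : x ∈ closure (Fx C T {i}) :=
    (Metric.mem_closure_iff_infDist_zero (hFne _ (countable_singleton i))).2
      (le_antisymm h1 Metric.infDist_nonneg)
  rw [(isClosed_Fx hcl hT {i}).closure_eq] at h2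
  exact h2.2 i (mem_singleton i)

/-- Nonexpansive retraction onto the common fixed point set of an arbitrary commuting family. -/
theorem exists_common_retr [CompleteSpace X] {ι : Type*}
    (hX : Function.Surjective (NormedSpace.inclusionInDoubleDual ℝ X))
    {C : Set X} (hcl : IsClosed C) (hb : Bornology.IsBounded C)
    (hco : Convex ℝ C) {T : ι → X → X} (hT : ∀ i, NE C (T i))
    (hcomm : ∀ i j, ∀ x ∈ C, T i (T j x) = T j (T i x)) :
    ∃ r, Retr C {x | x ∈ C ∧ ∀ i, T i x = x} r := by
  refine exists_retraction hX hcl hb hco (fun x hx => hx.1) (range T) ?_ ?_ ?_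
  · rintro S ⟨n, rfl⟩
    exact hT n
  · rintro S ⟨n, rfl⟩ x hx
    exact hx.2 n
  · intro K hKC hKne hKcl hKco hK
    obtain ⟨x, hxK, hx⟩ := exists_common hX hKne hKcl (hb.subset hKC) hKco (T := T)
      (fun i => (hT i).mono hKC (hK _ (mem_range_self i)))
      (fun i j x hx => hcomm i j x (hKC hx))
    exact ⟨x, hxK, hKC hxK, hx⟩

end Vale.Agent.P079.H880
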