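import Vale.Agent.P079.H880.Retract

set_option linter.all false

open Filter Topology Set

namespace Vale.Agent.P079.H880

variable {X : Type*} [NormedAddCommGroup X] [NormedSpace ℝ X]

/-- Common fixed points in `C` of the maps with index in `A`. -/
def Fx {ι : Type*} (C : Set X) (T : ι → X → X) (A : Set ι) : Set X :=
  {x | x ∈ C ∧ ∀ i ∈ A, T i x = x}

theorem Fx.subset {ι : Type*} (C : Set X) (T : ι → X → X) (A : Set ι) : Fx C T A ⊆ C :=
  fun x hx => hx.1

theorem Fx.anti {ι : Type*} (C : Set X) (T : ι → X → X) {A B : Set ι} (h : A ⊆ B) :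
    Fx C T B ⊆ Fx C T A := fun x hx => ⟨hx.1, fun i hi => hx.2 i (h hi)⟩

/-- Retractions onto common fixed point sets of finite commuting families. -/
theorem exists_retr_finset [CompleteSpace X] {ι : Type*}
    (hX : Function.Surjective (NormedSpace.inclusionInDoubleDual ℝ X))
    {C : Set X} (hcl : IsClosed C) (hb : Bornology.IsBounded C) (hco : Convex ℝ C)
    {T : ι → X → X} (hT : ∀ i, NE C (T i))
    (hcomm : ∀ i j, ∀ x ∈ C, T i (T j x) = T j (T i x)) (A : Finset ι) :
    ∃ r, Retr C (Fx C T (A : Set ι)) r := by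
  classical
  induction A using Finset.induction_on with
  | empty =>
      refine ⟨fun x => x, NE.id C, fun x hx => ⟨hx, ?_⟩, fun x _ => rfl⟩
      intro i hi
      simp at hi
  | insert i A _ ih =>
      obtain ⟨r, hr1, hr2, hr3⟩ := ih
      obtain ⟨s, hs1, hs2, hs3⟩ := exists_retraction_single hX hcl hb hco ((hT i).comp hr1)
      have key : Fx C T ((insert i A : Finset ι) : Set ι) = {x | x ∈ C ∧ T i (r x) = x} := by
        ext x
        constructor
        · rintro ⟨hxC, hx⟩
          have h1 : x ∈ Fx C T (A : Set ι) := ⟨hxC, fun j hj => hx j (by simp [hj])⟩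
          refine ⟨hxC, ?_⟩
          rw [hr3 x h1]
          exact hx i (by simp)
        · rintro ⟨hxC, hx⟩
          have h1 : x ∈ Fx C T (A : Set ι) := by
            refine ⟨hxC, fun j hj => ?_⟩
            conv_lhs => rw [← hx]
            rw [hcomm j i _ (hr1.1 hxC), (hr2 x hxC).2 j hj]
            exact hx
          refine ⟨hxC, fun j hj => ?_⟩
          rw [Finset.coe_insert, mem_insert_iff] at hj
          rcases hj with rfl | hj
          · have h2 := hx
            rwa [hr3 x h1] at h2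
          · exact h1.2 j hj
      rw [key]
      exact ⟨s, hs1, hs2, hs3⟩

/-- The dyadic average of a sequence of maps. -/
noncomputable def avg (r : ℕ → X → X) (x : X) : X := ∑' n, (1 / 2 : ℝ) ^ (n + 1) • r n x

theorem hasSum_half : HasSum (fun n : ℕ => (1 / 2 : ℝ) ^ (n + 1)) 1 := by
  have h := (hasSum_geometric_two).mul_left (1 / 2 : ℝ)
  have e : (fun n : ℕ => (1 / 2 : ℝ) * (1 / 2) ^ n) = fun n : ℕ => (1 / 2 : ℝ) ^ (n + 1) := by
    funext n
    rw [pow_succ, mul_comm]
  rw [e] at h
  have h1 : (1 / 2 : ℝ) * 2 = 1 := by norm_num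
  rwa [h1] at h

theorem summable_avg [CompleteSpace X] {v : ℕ → X} {M : ℝ} (hv : ∀ n, ‖v n‖ ≤ M) :
    Summable (fun n => (1 / 2 : ℝ) ^ (n + 1) • v n) := by
  refine Summable.of_norm_bounded (g := fun n : ℕ => (1 / 2 : ℝ) ^ (n + 1) * M)
    (hasSum_half.summable.mul_right M) fun n => ?_
  rw [norm_smul, Real.norm_of_nonneg (by positivity)]
  exact mul_le_mul_of_nonneg_left (hv n) (by positivity)

theorem finite_combo_mem {K : Set X} (hco : Convex ℝ K) {v : ℕ → X} {z : X} (hz : z ∈ K)
    (hv : ∀ n, v n ∈ K) (N : ℕ) :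
    (∑ n ∈ Finset.range N, (1 / 2 : ℝ) ^ (n + 1) • v n) + (1 / 2 : ℝ) ^ N • z ∈ K := by
  induction N generalizing v with
  | zero => simpa using hz
  | succ N ih =>
      have h1 := ih (v := fun n => v (n + 1)) (fun n => hv (n + 1))
      have h2 := hco (hv 0) h1 (by norm_num : (0 : ℝ) ≤ 1 / 2) (by norm_num : (0 : ℝ) ≤ 1 / 2)
        (by norm_num)
      convert h2 using 1
      rw [Finset.sum_range_succ', smul_add, Finset.smul_sum]
      have e : ∀ n, (1 / 2 : ℝ) ^ (n + 1 + 1) • v (n + 1)
          = (1 / 2 : ℝ) • (1 / 2 : ℝ) ^ (n + 1) • v (n + 1) := by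
        intro n
        rw [smul_smul, ← pow_succ']
      have e2 : (1 / 2 : ℝ) ^ (N + 1) • z = (1 / 2 : ℝ) • (1 / 2 : ℝ) ^ N • z := by
        rw [smul_smul, ← pow_succ']
      rw [e2]
      simp only [e, zero_add, pow_one]
      abel

theorem avg_mem [CompleteSpace X] {K : Set X} (hcl : IsClosed K) (hb : Bornology.IsBounded K)
    (hco : Convex ℝ K) {r : ℕ → X → X} (hr : ∀ n, MapsTo (r n) K K) :
    MapsTo (avg r) K K := by
  intro x hx
  obtain ⟨M, hM⟩ := hb.exists_norm_le
  have hs : Summable (fun n => (1 / 2 : ℝ) ^ (n + 1) • r n x) :=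
    summable_avg (M := M) fun n => hM _ (hr n hx)
  have h1 : Tendsto (fun N => (∑ n ∈ Finset.range N, (1 / 2 : ℝ) ^ (n + 1) • r n x)
      + (1 / 2 : ℝ) ^ N • x) atTop (𝓝 (avg r x + 0)) := by
    refine hs.hasSum.tendsto_sum_nat.add ?_
    have h2 : Tendsto (fun N : ℕ => (1 / 2 : ℝ) ^ N) atTop (𝓝 0) :=
      tendsto_pow_atTop_nhds_zero_of_lt_one (by norm_num) (by norm_num)
    simpa using h2.smul_const x
  rw [add_zero] at h1
  exact hcl.mem_of_tendsto h1
    (Eventually.of_forall fun N => finite_combo_mem hco hx (fun n => hr n hx) N)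

theorem norm_tsum_half_le [CompleteSpace X] {v : ℕ → X} {w : ℕ → ℝ} {M : ℝ}
    (hw : ∀ n, ‖v n‖ ≤ w n) (hM : ∀ n, w n ≤ M) (h0 : ∀ n, 0 ≤ w n) :
    ‖∑' n, (1 / 2 : ℝ) ^ (n + 1) • v n‖ ≤ ∑' n, (1 / 2 : ℝ) ^ (n + 1) * w n := by
  have hs : Summable (fun n => (1 / 2 : ℝ) ^ (n + 1) * w n) := by
    refine Summable.of_nonneg_of_le (fun n => mul_nonneg (by positivity) (h0 n))
      (fun n => mul_le_mul_of_nonneg_left (hM n) (by positivity))
      (hasSum_half.summable.mul_right M)
  refine tsum_of_norm_bounded hs.hasSum fun n => ?_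
  rw [norm_smul, Real.norm_of_nonneg (by positivity)]
  exact mul_le_mul_of_nonneg_left (hw n) (by positivity)

theorem avg_ne [CompleteSpace X] {K : Set X} (hcl : IsClosed K) (hb : Bornology.IsBounded K)
    (hco : Convex ℝ K) {r : ℕ → X → X} (hr : ∀ n, NE K (r n)) : NE K (avg r) := by
  refine ⟨avg_mem hcl hb hco fun n => (hr n).1, fun x hx y hy => ?_⟩
  obtain ⟨M, hM⟩ := hb.exists_norm_le
  have hsx : Summable (fun n => (1 / 2 : ℝ) ^ (n + 1) • r n x) :=
    summable_avg (M := M) fun n => hM _ ((hr n).1 hx)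
  have hsy : Summable (fun n => (1 / 2 : ℝ) ^ (n + 1) • r n y) :=
    summable_avg (M := M) fun n => hM _ ((hr n).1 hy)
  have e : avg r x - avg r y = ∑' n, (1 / 2 : ℝ) ^ (n + 1) • (r n x - r n y) := by
    rw [avg, avg, ← hsx.tsum_sub hsy]
    refine tsum_congr fun n => ?_
    rw [smul_sub]
  rw [e]
  refine (norm_tsum_half_le (w := fun _ => ‖x - y‖) (M := ‖x - y‖)
    (fun n => (hr n).2 x hx y hy) (fun n => le_rfl) (fun n => norm_nonneg _)).trans ?_
  rw [tsum_mul_right, hasSum_half.tsum_eq, one_mul]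

/-- The averaging lemma: common fixed points of a decreasing sequence of retractions. -/
theorem exists_common_seq [CompleteSpace X]
    (hX : Function.Surjective (NormedSpace.inclusionInDoubleDual ℝ X))
    {K : Set X} (hne : K.Nonempty) (hcl : IsClosed K) (hb : Bornology.IsBounded K)
    (hco : Convex ℝ K) {r : ℕ → X → X} (hr : ∀ n, NE K (r n))
    (hrr : ∀ m n, m ≤ n → ∀ x ∈ K, r m (r n x) = r n x) :
    ∃ x ∈ K, ∀ n, r n x = x := by
  obtain ⟨x, hx, hfx⟩ := exists_fixed_point hX hne hcl hb hco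
    (avg_ne hcl hb hco hr).1 (avg_ne hcl hb hco hr).2
  refine ⟨x, hx, ?_⟩
  obtain ⟨M, hM⟩ := hb.exists_norm_le
  have hM' : ∀ y ∈ K, ∀ z ∈ K, ‖y - z‖ ≤ 2 * M := fun y hy z hz => by
    have h1 := norm_sub_le y z
    have h2 := hM y hy
    have h3 := hM z hz
    linarith
  set a : ℕ → ℝ := fun n => ‖x - r n x‖ with ha
  have ha0 : ∀ n, 0 ≤ a n := fun n => norm_nonneg _
  have haM : ∀ n, a n ≤ 2 * M := fun n => hM' x hx _ ((hr n).1 hx)
  -- the halving step
  have half : ∀ B : ℝ, (∀ n, a n ≤ B) → ∀ m, a m ≤ B / 2 := by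
    intro B hB m
    have hB0 : 0 ≤ B := (ha0 0).trans (hB 0)
    have hs : Summable (fun n => (1 / 2 : ℝ) ^ (n + 1) • r n x) :=
      summable_avg (M := M) fun n => hM _ ((hr n).1 hx)
    have hc : HasSum (fun n : ℕ => (1 / 2 : ℝ) ^ (n + 1) • r m x) (r m x) := by
      simpa using hasSum_half.smul_const (r m x)
    have e : x - r m x = ∑' n, (1 / 2 : ℝ) ^ (n + 1) • (r n x - r m x) := by
      calc x - r m x = avg r x - r m x := by rw [hfx]
        _ = (∑' n, (1 / 2 : ℝ) ^ (n + 1) • r n x) - ∑' n : ℕ, (1 / 2 : ℝ) ^ (n + 1) • r m x := by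
            rw [hc.tsum_eq, avg]
        _ = ∑' n, ((1 / 2 : ℝ) ^ (n + 1) • r n x - (1 / 2 : ℝ) ^ (n + 1) • r m x) :=
            (hs.tsum_sub hc.summable).symm
        _ = _ := tsum_congr fun n => by rw [smul_sub]
    have hd : ∀ n, ‖r n x - r m x‖ ≤ if n < m then a m else if n = m then 0 else B := by
      intro n
      split_ifs with h h'
      · have h1 := (hr n).2 x hx _ ((hr m).1 hx)
        rwa [hrr n m h.le x hx] at h1
      · rw [h', sub_self, norm_zero]
      · have h1 := (hr m).2 _ ((hr n).1 hx) x hx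
        rw [hrr m n (by omega) x hx] at h1
        refine h1.trans ?_
        rw [norm_sub_rev]
        exact hB n
    have h2 : a m ≤ ∑' n : ℕ, (1 / 2 : ℝ) ^ (n + 1)
        * (if n < m then a m else if n = m then 0 else B) := by
      rw [ha]
      show ‖x - r m x‖ ≤ _
      conv_lhs => rw [e]
      refine norm_tsum_half_le (M := B) hd (fun n => ?_) (fun n => ?_)
      · split_ifs
        · exact hB m
        · exact hB0
        · exact le_rfl
      · split_ifs
        · exact ha0 m
        · exact le_rfl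
        · exact hB0
    have h3 : (∑' n : ℕ, (1 / 2 : ℝ) ^ (n + 1)
          * (if n < m then a m else if n = m then 0 else B))
        = (1 - (1 / 2 : ℝ) ^ m) * a m + (1 / 2 : ℝ) ^ (m + 1) * B := by
      have e1 : (fun n : ℕ => (1 / 2 : ℝ) ^ (n + 1)
            * (if n < m then a m else if n = m then 0 else B))
          = fun n : ℕ => (1 / 2 : ℝ) ^ (n + 1) * B
            + (if n ∈ Finset.range (m + 1) then
                (1 / 2 : ℝ) ^ (n + 1) * (if n = m then -B else a m - B) else 0) := by
        funext n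
        simp only [Finset.mem_range]
        rcases lt_trichotomy n m with h | h | h
        · rw [if_pos h, if_pos (by omega), if_neg (by omega)]
          ring
        · rw [if_neg (by omega), if_pos h, if_pos (by omega), if_pos h]
          ring
        · rw [if_neg (by omega), if_neg (by omega), if_neg (by omega)]
          ring
      have hfin : HasSum (fun n : ℕ =>
          if n ∈ Finset.range (m + 1) then
            (1 / 2 : ℝ) ^ (n + 1) * (if n = m then -B else a m - B) else 0)
          (∑ n ∈ Finset.range (m + 1), (1 / 2 : ℝ) ^ (n + 1) * (if n = m then -B else a m - B)) := by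
        have h4 := hasSum_sum_of_ne_finset_zero (L := SummationFilter.unconditional ℕ)
          (f := fun n : ℕ =>
          if n ∈ Finset.range (m + 1) then
            (1 / 2 : ℝ) ^ (n + 1) * (if n = m then -B else a m - B) else 0)
          (s := Finset.range (m + 1)) (fun n hn => by simp only [hn, if_false])
        have h5 : (∑ n ∈ Finset.range (m + 1), (fun n : ℕ =>
            if n ∈ Finset.range (m + 1) then
            (1 / 2 : ℝ) ^ (n + 1) * (if n = m then -B else a m - B) else 0) n)
            = ∑ n ∈ Finset.range (m + 1),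
              (1 / 2 : ℝ) ^ (n + 1) * (if n = m then -B else a m - B) :=
          Finset.sum_congr rfl fun n hn => by simp only [hn, if_true]
        rw [h5] at h4
        exact h4
      have hsum : ∀ k : ℕ, ∑ n ∈ Finset.range k, (1 / 2 : ℝ) ^ (n + 1) = 1 - (1 / 2 : ℝ) ^ k := by
        intro k
        induction k with
        | zero => simp
        | succ k ih =>
            rw [Finset.sum_range_succ, ih]
            ring
      have hlast : ∑ n ∈ Finset.range (m + 1), (1 / 2 : ℝ) ^ (n + 1)
            * (if n = m then -B else a m - B)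
          = (1 - (1 / 2 : ℝ) ^ m) * (a m - B) - (1 / 2 : ℝ) ^ (m + 1) * B := by
        rw [Finset.sum_range_succ, if_pos rfl]
        have h6 : ∑ n ∈ Finset.range m, (1 / 2 : ℝ) ^ (n + 1) * (if n = m then -B else a m - B)
            = ∑ n ∈ Finset.range m, (1 / 2 : ℝ) ^ (n + 1) * (a m - B) :=
          Finset.sum_congr rfl fun n hn => by
            rw [if_neg (by have := Finset.mem_range.1 hn; omega)]
        rw [h6, ← Finset.sum_mul, hsum]
        ring
      rw [e1]
      have h5 := ((hasSum_half.mul_right B).add hfin).tsum_eq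
      rw [h5, hlast]
      ring
    rw [h3] at h2
    have hp : (0 : ℝ) < (1 / 2 : ℝ) ^ m := by positivity
    have hp2 : (1 / 2 : ℝ) ^ (m + 1) = (1 / 2 : ℝ) ^ m * (1 / 2) := pow_succ _ _
    rw [hp2] at h2
    have h4 : (1 / 2 : ℝ) ^ m * a m ≤ (1 / 2 : ℝ) ^ m * (B / 2) := by linarith
    exact le_of_mul_le_mul_left h4 hp
  have iter : ∀ k : ℕ, ∀ m, a m ≤ 2 * M * (1 / 2) ^ k := by
    intro k
    induction k with
    | zero => intro m; simpa using haM m
    | succ k ih =>
        intro m
        have h1 := half _ ih m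
        rw [pow_succ]
        linarith
  intro n
  have h1 : Tendsto (fun k : ℕ => 2 * M * (1 / 2 : ℝ) ^ k) atTop (𝓝 (2 * M * 0)) :=
    (tendsto_pow_atTop_nhds_zero_of_lt_one (by norm_num) (by norm_num)).const_mul _
  rw [mul_zero] at h1
  have h2 : a n ≤ 0 := ge_of_tendsto h1 (Eventually.of_forall fun k => iter k n)
  have h3 : ‖x - r n x‖ ≤ 0 := h2
  exact (sub_eq_zero.1 (norm_le_zero_iff.1 h3)).symm

end Vale.Agent.P079.H880
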