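import Vale.Agent.P079.Bdl.B1

set_option linter.all false

open Filter Topology Set

namespace Vale.Agent.P079.H880

variable {X : Type*} [NormedAddCommGroup X] [NormedSpace ℝ X]

/-- Nonexpansive selfmaps of `C`, as ambient maps. -/
def NE (C : Set X) (f : X → X) : Prop :=
  MapsTo f C C ∧ ∀ x ∈ C, ∀ y ∈ C, ‖f x - f y‖ ≤ ‖x - y‖

theorem NE.id (C : Set X) : NE C (fun x => x) :=
  ⟨fun x hx => hx, fun x _ y _ => le_rfl⟩

theorem NE.comp {C : Set X} {f g : X → X} (hf : NE C f) (hg : NE C g) :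
    NE C (fun x => f (g x)) :=
  ⟨fun x hx => hf.1 (hg.1 hx), fun x hx y hy =>
    (hf.2 _ (hg.1 hx) _ (hg.1 hy)).trans (hg.2 x hx y hy)⟩

theorem NE.combo {C : Set X} (hco : Convex ℝ C) {f g : X → X} (hf : NE C f) (hg : NE C g)
    {a b : ℝ} (ha : 0 ≤ a) (hb : 0 ≤ b) (hab : a + b = 1) :
    NE C (fun x => a • f x + b • g x) := by
  refine ⟨fun x hx => hco (hf.1 hx) (hg.1 hx) ha hb hab, fun x hx y hy => ?_⟩
  have e : a • f x + b • g x - (a • f y + b • g y) = a • (f x - f y) + b • (g x - g y) := by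
    module
  rw [e]
  calc ‖a • (f x - f y) + b • (g x - g y)‖ ≤ ‖a • (f x - f y)‖ + ‖b • (g x - g y)‖ :=
        norm_add_le _ _
    _ = a * ‖f x - f y‖ + b * ‖g x - g y‖ := by
        rw [norm_smul, norm_smul, Real.norm_of_nonneg ha, Real.norm_of_nonneg hb]
    _ ≤ a * ‖x - y‖ + b * ‖x - y‖ :=
        add_le_add (mul_le_mul_of_nonneg_left (hf.2 x hx y hy) ha)
          (mul_le_mul_of_nonneg_left (hg.2 x hx y hy) hb)
    _ = ‖x - y‖ := by rw [← add_mul, hab, one_mul]

theorem NE.mono {C K : Set X} {f : X → X} (hf : NE C f) (hKC : K ⊆ C) (hK : MapsTo f K K) :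
    NE K f := ⟨hK, fun x hx y hy => hf.2 x (hKC hx) y (hKC hy)⟩

theorem NE.continuousOn {C : Set X} {f : X → X} (hf : NE C f) : ContinuousOn f C := by
  have h : LipschitzOnWith 1 f C := LipschitzOnWith.of_dist_le_mul fun x hx y hy => by
    rw [dist_eq_norm, dist_eq_norm, NNReal.coe_one, one_mul]
    exact hf.2 x hx y hy
  exact h.continuousOn

/-- `r` is a nonexpansive retraction of `C` onto `F`. -/
def Retr (C F : Set X) (r : X → X) : Prop :=
  NE C r ∧ (∀ x ∈ C, r x ∈ F) ∧ ∀ x ∈ F, r x = x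

/-- Weak limits of eventually small differences are small. -/
theorem norm_weak_limit_le {ι : Type*} {l : Filter ι} [l.NeBot] {x y : ι → X} {g h : X}
    (hg : ∀ f : StrongDual ℝ X, Tendsto (fun i => f (x i)) l (𝓝 (f g)))
    (hh : ∀ f : StrongDual ℝ X, Tendsto (fun i => f (y i)) l (𝓝 (f h)))
    {B : ℝ} (hB : ∀ᶠ i in l, ‖x i - y i‖ ≤ B) : ‖g - h‖ ≤ B := by
  have h1 : ∀ f : StrongDual ℝ X, Tendsto (fun i => f (x i - y i)) l (𝓝 (f (g - h))) := by
    intro f
    simp only [map_sub]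
    exact (hg f).sub (hh f)
  have h2 : g - h ∈ Metric.closedBall (0 : X) B :=
    weak_limit_mem h1 (convex_closedBall _ _) Metric.isClosed_closedBall
      (hB.mono fun i hi => by rwa [mem_closedBall_zero_iff])
  rwa [mem_closedBall_zero_iff] at h2

/-- Bruck's retraction theorem. -/
theorem exists_retraction (hX : Function.Surjective (NormedSpace.inclusionInDoubleDual ℝ X))
    {C : Set X} (hcl : IsClosed C) (hb : Bornology.IsBounded C) (hco : Convex ℝ C)
    {F : Set X} (hF : F ⊆ C) (S : Set (X → X)) (hS : ∀ T ∈ S, NE C T)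
    (hSF : ∀ T ∈ S, ∀ x ∈ F, T x = x)
    (hfix : ∀ K ⊆ C, K.Nonempty → IsClosed K → Convex ℝ K → (∀ T ∈ S, MapsTo T K K) →
      (K ∩ F).Nonempty) : ∃ r, Retr C F r := by
  classical
  obtain ⟨M, hM⟩ := hb.exists_norm_le
  let N : Type _ := {f : X → X // NE C f ∧ ∀ x ∈ F, f x = x}
  let rel : N → N → Prop := fun f g => ∀ x ∈ C, ∀ y ∈ C, ‖g.1 x - g.1 y‖ ≤ ‖f.1 x - f.1 y‖
  have hrefl : ∀ f, rel f f := fun f x _ y _ => le_rfl
  haveI : Std.Refl rel := ⟨hrefl⟩
  have htrans : ∀ {f g h : N}, rel f g → rel g h → rel f h :=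
    fun {f g h} h1 h2 x hx y hy => (h2 x hx y hy).trans (h1 x hx y hy)
  have hchain : ∀ c : Set N, IsChain rel c → ∃ ub, ∀ a ∈ c, rel a ub := by
    intro c hc
    rcases c.eq_empty_or_nonempty with h0 | hcne
    · exact ⟨⟨fun x => x, NE.id C, fun x _ => rfl⟩, fun a ha => by simp [h0] at ha⟩
    haveI : Nonempty c := hcne.to_subtype
    let l : Filter c := ⨅ f : c, 𝓟 {g : c | rel f.1 g.1}
    have hl : l.NeBot := by
      refine Filter.iInf_neBot_of_directed' ?_ ?_
      · intro f g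
        rcases hc.total f.2 g.2 with h | h
        · refine ⟨g, ?_, ?_⟩
          · exact principal_mono.2 fun k hk => htrans h hk
          · exact le_rfl
        · refine ⟨f, le_rfl, ?_⟩
          exact principal_mono.2 fun k hk => htrans h hk
      · intro f
        rw [principal_neBot_iff]
        exact ⟨f, hrefl _⟩
    let U : Ultrafilter c := Ultrafilter.of l
    have hlim : ∀ x : X, ∃ y : X, x ∈ C →
        ∀ φ : StrongDual ℝ X, Tendsto (fun g : c => φ (g.1.1 x)) U (𝓝 (φ y)) := by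
      intro x
      by_cases hx : x ∈ C
      · obtain ⟨y, hy⟩ := exists_weak_limit hX U (fun g : c => g.1.1 x) M
          (fun g => hM _ (g.1.2.1.1 hx))
        exact ⟨y, fun _ => hy⟩
      · exact ⟨x, fun h => absurd h hx⟩
    choose h hh using hlim
    have hhNE : NE C h := by
      refine ⟨fun x hx => ?_, fun x hx y hy => ?_⟩
      · exact weak_limit_mem (hh x hx) hco hcl (Eventually.of_forall fun g => g.1.2.1.1 hx)
      · exact norm_weak_limit_le (hh x hx) (hh y hy)
          (Eventually.of_forall fun g => g.1.2.1.2 x hx y hy)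
    have hhF : ∀ x ∈ F, h x = x := by
      intro x hx
      have h1 : ‖h x - x‖ ≤ 0 := by
        refine norm_weak_limit_le (y := fun _ : c => x) (hh x (hF hx))
          (fun f => tendsto_const_nhds) (Eventually.of_forall fun g => ?_)
        simp only [g.1.2.2 x hx, sub_self, norm_zero, le_refl]
      exact sub_eq_zero.1 (norm_le_zero_iff.1 h1)
    refine ⟨⟨h, hhNE, hhF⟩, fun a ha x hx y hy => ?_⟩
    refine norm_weak_limit_le (hh x hx) (hh y hy) ?_
    have h1 : ∀ᶠ g : c in l, rel a g.1 := by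
      have h2 : {g : c | rel a g.1} ∈ l :=
        mem_iInf_of_mem (⟨a, ha⟩ : c) (mem_principal_self _)
      exact h2
    have h3 : ∀ᶠ g : c in (U : Filter c), rel a g.1 := h1.filter_mono (Ultrafilter.of_le _)
    exact h3.mono fun g hg => hg x hx y hy
  obtain ⟨f, hf⟩ := exists_maximal_of_chains_bounded hchain htrans
  -- minimality: composing on the left does not change distances
  have hmin : ∀ g : N, ∀ x ∈ C, ∀ y ∈ C, ‖f.1 x - f.1 y‖ ≤ ‖g.1 (f.1 x) - g.1 (f.1 y)‖ := by
    intro g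
    have hgf : ∀ x ∈ F, (fun x => g.1 (f.1 x)) x = x := fun x hx => by
      simp only [f.2.2 x hx, g.2.2 x hx]
    exact hf ⟨fun x => g.1 (f.1 x), g.2.1.comp f.2.1, hgf⟩
      (fun x hx y hy => g.2.1.2 _ (f.2.1.1 hx) _ (f.2.1.1 hy))
  refine ⟨f.1, f.2.1, fun x hx => ?_, f.2.2⟩
  -- the invariant convex set
  set K0 : Set X := {z | ∃ g : N, z = g.1 (f.1 x)} with hK0
  have hK0C : K0 ⊆ C := by
    rintro z ⟨g, rfl⟩
    exact g.2.1.1 (f.2.1.1 hx)
  have hK0ne : K0.Nonempty := ⟨_, f, rfl⟩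
  have hK0co : Convex ℝ K0 := by
    rintro z ⟨g, rfl⟩ w ⟨k, rfl⟩ a b ha hb' hab
    refine ⟨⟨fun x => a • g.1 x + b • k.1 x, NE.combo hco g.2.1 k.2.1 ha hb' hab, ?_⟩, rfl⟩
    intro x hx
    simp only [g.2.2 x hx, k.2.2 x hx]
    rw [← add_smul, hab, one_smul]
  have hKC : closure K0 ⊆ C := closure_minimal hK0C hcl
  obtain ⟨z, hzK, hzF⟩ := hfix (closure K0) hKC hK0ne.closure isClosed_closure hK0co.closure (by
    intro T hT
    have h1 : MapsTo T K0 K0 := by
      rintro w ⟨g, rfl⟩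
      exact ⟨⟨fun x => T (g.1 x), (hS T hT).comp g.2.1, fun x hx => by
        simp only [g.2.2 x hx]
        exact hSF T hT x hx⟩, rfl⟩
    exact h1.closure_of_continuousOn (((hS T hT).continuousOn).mono hKC))
  have hfxz : f.1 x = z := by
    refine eq_of_forall_dist_le fun ε hε => ?_
    obtain ⟨w, ⟨g, rfl⟩, hw⟩ := Metric.mem_closure_iff.1 hzK ε hε
    have h1 := hmin g x hx z (hF hzF)
    rw [f.2.2 z hzF, g.2.2 z hzF] at h1
    rw [dist_eq_norm]
    rw [dist_comm, dist_eq_norm] at hw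
    exact h1.trans hw.le
  rw [hfxz]
  exact hzF

/-- Retraction onto the fixed point set of one nonexpansive map. -/
theorem exists_retraction_single [CompleteSpace X]
    (hX : Function.Surjective (NormedSpace.inclusionInDoubleDual ℝ X))
    {C : Set X} (hcl : IsClosed C) (hb : Bornology.IsBounded C) (hco : Convex ℝ C)
    {T : X → X} (hT : NE C T) : ∃ r, Retr C {x | x ∈ C ∧ T x = x} r := by
  refine exists_retraction hX hcl hb hco (fun x hx => hx.1) {T} (fun S hS => ?_)
    (fun S hS x hx => ?_) (fun K hKC hKne hKcl hKco hKT => ?_)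
  · rw [mem_singleton_iff.1 hS]
    exact hT
  · rw [mem_singleton_iff.1 hS]
    exact hx.2
  · obtain ⟨x, hx, hfx⟩ := exists_fixed_point hX hKne hKcl (hb.subset hKC) hKco
      (hKT T (mem_singleton _)) (fun x hx y hy => hT.2 x (hKC hx) y (hKC hy))
    exact ⟨x, hx, hKC hx, hfx⟩

end Vale.Agent.P079.H880
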